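import Vale.Agent.P011UF3.Loc
import Vale.Agent.P011UF.IF
import Vale.Agent.P011UQ4.Main
import Vale.Agent.P011.H279.SqrtB
import Vale.Agent.P011.Tpl.H359.Abhn
import Vale.Agent.P011.H973.Full.CompIso

/-!
Embedding of quadratic extensions in quaternion division algebras over global fields.
-/

open Module Polynomial NumberField IsDedekindDomain
open scoped TensorProduct

namespace Vale.Agent.P011UF3

open Vale.Agent.P011 Vale.Agent.P011.W Vale.Agent.P011.H738 Vale.Agent.P011.H271
open Vale.Agent.P011UE Vale.Agent.P011UF Vale.Agent.P011L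

variable {l Q : Type} [Field l] [DivisionRing Q] [Algebra l Q] [FiniteDimensional l Q]
  [Algebra.IsCentral l Q]

theorem eq_of_mul {n q : ℕ} (h : n * q = 2) : q = 1 ∨ n = 1 ∧ q = 2 := by
  rcases (Nat.dvd_prime Nat.prime_two).1 (Dvd.intro_left n h) with h1 | h1
  · exact Or.inl h1
  · subst h1
    exact Or.inr ⟨by omega, rfl⟩

/-- The algebra splits or stays a division algebra. -/
theorem sp_of_not_dp (hD : finrank l Q = 2 ^ 2) (v : Place l) (h : ¬Dp Q v) :
    Spl Q 2 (algebraMap l v.comp) := by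
  obtain ⟨n, q, _, Δ, _, _, _, _, ψ, h1, h2⟩ := H505.Wang.exists_part' hD v.comp
  rcases eq_of_mul h1 with rfl | ⟨rfl, rfl⟩
  · obtain ⟨f⟩ := spl_iff.1 (spl_of_maxfield h2 (finrank_self v.comp) (Algebra.ofId v.comp Δ))
    exact spl_iff.2 (H505.Wang.spl_of_part ψ h1 f)
  · refine (h fun x hx => ?_).elim
    let e := ψ.trans (H505.Wang.oneEquiv v.comp Δ)
    have h3 : IsUnit (e x) := ((map_ne_zero_iff e e.injective).2 hx).isUnit
    simpa using h3.map e.symm

/-- The local step. -/
theorem spl_at (hD : finrank l Q = 2 ^ 2) {t n : l} (hs : t ^ 2 ≠ 4 * n) (v : Place l)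
    (h : Dp Q v → Ine v t n) (R : Type) [NontriviallyNormedField R] [IsUltrametricDist R]
    [ProperSpace R] [Algebra l R] (a : R →+* v.comp)
    (ha : ∀ x, a (algebraMap l R x) = algebraMap l v.comp x) (b : v.comp →+* R)
    (hb : ∀ x, b (algebraMap l v.comp x) = algebraMap l R x) {M : Type} [Field M] (φ : R →+* M)
    {θ : M} (hθ : θ ^ 2 - φ (algebraMap l R t) * θ + φ (algebraMap l R n) = 0) :
    Spl Q 2 (φ.comp (algebraMap l R)) := by
  by_cases hv : Dp Q v
  · obtain ⟨r, q, Δ, _, _, _, _, h1, -, h2, h3⟩ := H505.Wang.exists_part hD R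
    rw [h3]
    rcases eq_of_mul h1 with rfl | ⟨rfl, rfl⟩
    · exact (spl_of_maxfield h2 (finrank_self R) (Algebra.ofId R Δ)).comp φ
    · refine spl_loc P011UQ4.lq2 h2 (fun h4 => hs ((algebraMap l R).injective ?_))
        (fun x hx => h hv (a x) ?_) φ hθ
      · rw [map_pow, h4, map_mul, map_ofNat]
      · rw [← ha, ← ha, ← map_pow, ← map_mul, ← map_sub, ← map_add, hx, map_zero]
  · rw [show algebraMap l R = b.comp (algebraMap l v.comp) from RingHom.ext fun x => (hb x).symm]
    exact ((sp_of_not_dp hD v hv).comp b).comp φ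

/-- A finite extension which contains a root splits the algebra. -/
theorem spl_ext (hG : Glob l) (hD : finrank l Q = 2 ^ 2) {t n : l} (hs : t ^ 2 ≠ 4 * n)
    (h : ∀ w : Place l, Dp Q w → Ine w t n) (h' : ∀ φ : l →+* ℝ, Spl Q 2 φ ∨ IneR φ t n)
    (E : Type) [Field E] [Algebra l E] [FiniteDimensional l E] {θ : E}
    (hθ : θ ^ 2 - algebraMap l E t * θ + algebraMap l E n = 0) : Spl Q 2 (algebraMap l E) := by
  have key : ∀ {M : Type} [Field M] (ψ : E →+* M),
      ψ θ ^ 2 - ψ (algebraMap l E t) * ψ θ + ψ (algebraMap l E n) = 0 := fun ψ => by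
    rw [← map_pow, ← map_mul, ← map_sub, ← map_add, hθ, map_zero]
  rcases hG with hG | hG
  · have : NumberField E := NumberField.of_module_finite l E
    refine Tpl.H359.abhn_gen hD E (fun w => ?_) fun _ ψ =>
      (h' _).resolve_right fun h1 => h1 (ψ θ) (key ψ)
    obtain ⟨v, hv⟩ := Arith.exists_below (F := l) w
    obtain ⟨g, hg⟩ := completion_map hv
    have : Finite (𝓞 l ⧸ v.asIdeal) := Arith.finite_residue v
    let _ := Even.nnf v
    have := Even.isUltra v
    have : ProperSpace (v.adicCompletion l) := Even.properSpace_compl v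
    rw [show pl (F := l) E w = g.comp (algebraMap l _) from RingHom.ext fun x => (hg x).symm]
    refine spl_at hD hs (H308.plHos l v) (h _) (v.adicCompletion l) (H308.toPl l v)
      H308.toPl_algebraMap (H973.Full.ofPl l v) (H973.Full.ofPl_algebraMap v) g
      (θ := algebraMap E _ θ) ?_
    rw [hg, hg]
    exact key _
  · have : GFF l := gff_of_isGlobal hG
    have : GFF E := Hey.H63.gff_of_finite (k := l)
    refine H279.Sq.spl_of_local hD E fun W => ?_
    obtain ⟨v, e, he, hvW⟩ := Hey.H63.exists_below (k := l) W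
    obtain ⟨φ, hφ⟩ := Hey.H63.exists_compHom v W he hvW
    rw [show (algebraMap E W.comp).comp (algebraMap l E) = φ.comp (algebraMap l v.comp) from
      RingHom.ext fun c => (hφ c).symm]
    let _ : NontriviallyNormedField v.comp := nnfPlace v
    refine spl_at hD hs v (h v) v.comp (RingHom.id _) (fun _ => rfl) (RingHom.id _) (fun _ => rfl)
      φ (θ := algebraMap E _ θ) ?_
    rw [hφ, hφ]
    exact key _

/-- **Embedding of quadratic extensions.** -/
theorem emb : EMB := by
  intro l Q _ _ _ _ N hQ t n hs h h'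
  have := hQ.central
  have hP : (X ^ 2 - C t * X + C n : l[X]).natDegree = 2 := by compute_degree!
  obtain ⟨f, hf, g, hg⟩ := exists_irreducible_of_natDegree_ne_zero (hP.trans_ne two_ne_zero)
  have : Fact (Irreducible f) := ⟨hf⟩
  have : FiniteDimensional l (AdjoinRoot f) := (AdjoinRoot.powerBasis hf.ne_zero).finite
  have hrk : finrank l (AdjoinRoot f) = f.natDegree := by
    rw [(AdjoinRoot.powerBasis hf.ne_zero).finrank, AdjoinRoot.powerBasis_dim]
  have hle : f.natDegree ≤ 2 := hP ▸ natDegree_le_of_dvd ⟨g, hg⟩ fun h0 => by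
    rw [h0] at hP
    simp at hP
  have hθ : AdjoinRoot.root f ^ 2 - algebraMap l _ t * AdjoinRoot.root f + algebraMap l _ n = 0 := by
    have h1 := congrArg (aeval (AdjoinRoot.root f)) hg
    rw [map_mul _ f, AdjoinRoot.aeval_eq f, AdjoinRoot.mk_self, zero_mul] at h1
    simpa using h1
  have h1 := spl_ext hQ.glob hQ.rank hs h h' _ hθ
  obtain ⟨j⟩ := embed_of_spl hQ.rank (le_antisymm (hrk ▸ hle) (Nat.le_of_dvd finrank_pos
    (H505.Wang.dvd_of_spl hQ.rank _ h1))) h1
  have h2 : Rt t n (j (AdjoinRoot.root f)) := by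
    have h2 := congrArg j hθ
    rwa [map_add, map_sub, map_mul, map_pow, j.commutes, j.commutes, map_zero, sq,
      ← Algebra.smul_def] at h2
  refine ⟨_, ?_, h2⟩
  rintro ⟨c, hc⟩
  have h3 := H505.Wang.dvd_of_spl hQ.rank l (spl_ext hQ.glob hQ.rank hs h h' l (θ := c)
    ((algebraMap l Q).injective ?_))
  · simp at h3
  · rw [Rt, ← hc, Algebra.smul_def] at h2
    simpa [sq] using h2

end Vale.Agent.P011UF3
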