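import Vale.Agent.P011UQ.IF

/-!
Quadratic polynomials without roots over local fields.
-/

open Module Filter

namespace Vale.Agent.P011UF3

open Vale.Agent.P011 Vale.Agent.P011.W Vale.Agent.P011UQ

variable {R : Type} [NontriviallyNormedField R] [IsUltrametricDist R]

theorem add_lt {x y : R} {r : ℝ} (h : ‖x‖ < r) (h' : ‖y‖ < r) : ‖x + y‖ < r :=
  (IsUltrametricDist.norm_add_le_max _ _).trans_lt (max_lt h h')

theorem add_le {x y : R} {r : ℝ} (h : ‖x‖ ≤ r) (h' : ‖y‖ ≤ r) : ‖x + y‖ ≤ r :=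
  (IsUltrametricDist.norm_add_le_max _ _).trans (max_le h h')

theorem add_eq {x y : R} (h : ‖x‖ < ‖y‖) : ‖x + y‖ = ‖y‖ := by
  rw [IsUltrametricDist.norm_add_eq_max_of_norm_ne_norm h.ne, max_eq_right h.le]

theorem sq_of_pow (h2 : ‖(2 : R)‖ < 1) {u : R} (hu : ‖u‖ = 1) (m : ℕ) :
    0 < m → ‖u ^ m - 1‖ < 1 → ∃ y : R, ‖y‖ ≤ 1 ∧ ‖y ^ 2 - u‖ < 1 := by
  induction m using Nat.strong_induction_on with
  | _ m ih =>
    intro hm h
    obtain ⟨r, rfl | rfl⟩ := Nat.even_or_odd' m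
    · refine ih r (by omega) (by omega) ?_
      by_contra hc
      have h3 : ‖(2 : R) + (u ^ r - 1)‖ = ‖u ^ r - 1‖ := add_eq (h2.trans_le (not_lt.1 hc))
      rw [show u ^ (2 * r) - 1 = (2 + (u ^ r - 1)) * (u ^ r - 1) by ring, norm_mul, h3] at h
      nlinarith
    · refine ⟨u ^ (r + 1), by rw [norm_pow, hu, one_pow], ?_⟩
      rwa [show (u ^ (r + 1)) ^ 2 - u = u * (u ^ (2 * r + 1) - 1) by ring, norm_mul, hu, one_mul]

variable [ProperSpace R]

/-- The residue field is perfect. -/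
theorem sq_res (h2 : ‖(2 : R)‖ < 1) {u : R} (hu : ‖u‖ = 1) :
    ∃ y : R, ‖y‖ ≤ 1 ∧ ‖y ^ 2 - u‖ < 1 := by
  obtain ⟨a, -, φ, hφ, h⟩ := (isCompact_closedBall (0 : R) 1).tendsto_subseq
    (x := fun i : ℕ => u ^ i) fun i => by simp [hu]
  obtain ⟨N, hN⟩ := Metric.tendsto_atTop.1 h 1 one_pos
  obtain ⟨m, hm⟩ := Nat.exists_eq_add_of_lt (hφ (Nat.lt_succ_self N))
  have h1 := hN N le_rfl
  have h3 := hN (N + 1) (Nat.le_succ N)
  rw [dist_eq_norm] at h1 h3
  refine sq_of_pow h2 hu (m + 1) (Nat.succ_pos m) ?_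
  have h4 := add_lt h3 ((norm_neg _).trans_lt h1)
  change ‖u ^ φ (N + 1) - a + -(u ^ φ N - a)‖ < 1 at h4
  rwa [hm, show u ^ (φ N + m + 1) - a + -(u ^ φ N - a) = u ^ φ N * (u ^ (m + 1) - 1) by ring,
    norm_mul, norm_pow, hu, one_pow, one_mul] at h4

/-- The normal form of a polynomial without roots. -/
theorem exists_lt {t n : R} (hs : t ^ 2 ≠ 4 * n) (h : ∀ x : R, x ^ 2 - t * x + n ≠ 0) :
    ∃ c : R, t - 2 * c ≠ 0 ∧ Lt ((c ^ 2 - t * c + n) / (t - 2 * c) ^ 2) := by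
  obtain ⟨c, hc⟩ := Continuous.exists_forall_le_of_isBounded
    (f := fun x : R => ‖x ^ 2 - t * x + n‖) (by fun_prop) 0
    ((Metric.isBounded_closedBall (x := (0 : R)) (r := ‖t‖ + 2 * ‖n‖ + 1)).subset fun x hx => by
      rw [mem_closedBall_zero_iff]
      by_contra hcon
      have h1 : ‖x ^ 2 - t * x + n‖ ≤ ‖n‖ := by simpa using hx
      have h2 : ‖x ^ 2‖ ≤ ‖x ^ 2 - t * x + n‖ + ‖t * x‖ + ‖n‖ := by
        conv_lhs => rw [show x ^ 2 = x ^ 2 - t * x + n + t * x - n by ring]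
        exact (norm_sub_le _ _).trans (add_le_add (norm_add_le _ _) le_rfl)
      rw [norm_pow, norm_mul] at h2
      nlinarith [norm_nonneg t, norm_nonneg n])
  obtain ⟨f, hf⟩ : ∃ f, f = c ^ 2 - t * c + n := ⟨_, rfl⟩
  obtain ⟨s, hs'⟩ : ∃ s, s = t - 2 * c := ⟨_, rfl⟩
  have e : ∀ y, (c + y) ^ 2 - t * (c + y) + n = y ^ 2 - s * y + f := fun y => by
    rw [hf, hs']; ring
  have e' : ∀ y, t - 2 * (c + y) = s - 2 * y := fun y => by rw [hs']; ring
  have hm : ∀ y, ‖f‖ ≤ ‖y ^ 2 - s * y + f‖ := fun y => by rw [← e, hf]; exact hc _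
  have hf0 : 0 < ‖f‖ := norm_pos_iff.2 (hf ▸ h c)
  have hle : ‖s‖ ^ 2 ≤ ‖f‖ := by
    rcases eq_or_ne s 0 with rfl | h0
    · simp
    · have h1 := hm (f / s)
      rw [mul_div_cancel₀ _ h0, sub_add_cancel, norm_pow, norm_div, div_pow,
        le_div_iff₀ (by positivity)] at h1
      nlinarith
  by_cases hA : ∀ y : R, ‖y‖ ^ 2 ≠ ‖f‖
  · have key : ∀ y, s - 2 * y ≠ 0 → ‖s - 2 * y‖ ^ 2 ≤ ‖f‖ → ‖y ^ 2 - s * y + f‖ = ‖f‖ →
        ∃ c : R, t - 2 * c ≠ 0 ∧ Lt ((c ^ 2 - t * c + n) / (t - 2 * c) ^ 2) := by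
      intro y h1 h2 h3
      have h4 : 0 < ‖s - 2 * y‖ ^ 2 := by positivity
      refine ⟨c + y, e' y ▸ h1, Or.inl ?_⟩
      rw [e, e', norm_div, norm_pow, h3, one_lt_div h4]
      refine ⟨h2.lt_of_ne (hA _), fun z hz => hA (z * (s - 2 * y)) ?_⟩
      rw [norm_mul, mul_pow, hz, div_mul_cancel₀ _ h4.ne']
    rcases eq_or_ne s 0 with h0 | h0
    · obtain ⟨y, h1, h2⟩ := NormedField.exists_norm_lt R (lt_min hf0 one_pos)
      have h3 : ‖y‖ ^ 2 < ‖f‖ := by nlinarith [min_le_left ‖f‖ 1, min_le_right ‖f‖ 1]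
      have h4 : (2 : R) ≠ 0 := fun h4 => hs (by
        rw [h0, h4, zero_mul, sub_zero] at hs'
        rw [← hs', show (4 : R) = 2 * 2 by norm_num, h4]
        simp)
      refine key y (by simpa [h0, h4] using h1) ?_ ?_
      · have h5 : ‖(2 : R)‖ ≤ 1 := by simpa using IsUltrametricDist.norm_natCast_le_one R 2
        rw [h0, zero_sub, norm_neg, norm_mul, mul_pow]
        nlinarith [norm_nonneg (2 : R), sq_nonneg ‖y‖, mul_le_one₀ h5 (norm_nonneg _) h5]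
      · rw [h0, zero_mul, sub_zero]
        exact add_eq (by rwa [norm_pow])
    · exact key 0 (by simpa using h0) (by simpa using hle) (by simp)
  · push Not at hA
    obtain ⟨d, hd⟩ := hA
    have hd0 : 0 < ‖d‖ := (norm_nonneg d).lt_of_ne fun h0 => by rw [← h0] at hd; linarith
    have key : ∀ y, ‖s - 2 * y‖ = ‖d‖ → ‖y ^ 2 - s * y + f‖ ≤ ‖f‖ →
        ∃ c : R, t - 2 * c ≠ 0 ∧ Lt ((c ^ 2 - t * c + n) / (t - 2 * c) ^ 2) := by
      intro y h1 h2
      have h3 : s - 2 * y ≠ 0 := norm_pos_iff.1 (h1 ▸ hd0)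
      refine ⟨c + y, e' y ▸ h3, Or.inr ?_⟩
      rw [e, e', norm_div, norm_pow, h1, hd, div_le_one hf0]
      refine ⟨h2, fun z _ => ?_⟩
      have h4 := hm (y - (s - 2 * y) * z)
      rw [show z ^ 2 + z + (y ^ 2 - s * y + f) / (s - 2 * y) ^ 2 =
        ((y - (s - 2 * y) * z) ^ 2 - s * (y - (s - 2 * y) * z) + f) / (s - 2 * y) ^ 2 by
          rw [eq_div_iff (pow_ne_zero 2 h3), add_mul, div_mul_cancel₀ _ (pow_ne_zero 2 h3)]
          ring, norm_div, norm_pow, h1, hd, not_lt, one_le_div hf0]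
      exact h4
    have h1 : ‖s‖ ≤ ‖d‖ := (pow_le_pow_iff_left₀ (norm_nonneg _) hd0.le two_ne_zero).1 (hd ▸ hle)
    rcases h1.eq_or_lt with h1 | h1
    · exact key 0 (by simpa using h1) (by simp)
    have h5 : ‖(2 : R)‖ ≤ 1 := by simpa using IsUltrametricDist.norm_natCast_le_one R 2
    rcases h5.eq_or_lt with h5 | h5
    · refine key d ?_ (add_le ?_ le_rfl)
      · rw [sub_eq_add_neg, add_eq (by rwa [norm_neg, norm_mul, h5, one_mul]), norm_neg, norm_mul,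
          h5, one_mul]
      · rw [sub_eq_add_neg]
        refine add_le (by rw [norm_pow, hd]) ?_
        rw [norm_neg, norm_mul, ← hd]
        nlinarith
    · have hd1 : d ≠ 0 := norm_pos_iff.1 hd0
      obtain ⟨y, h6, h7⟩ := sq_res h5 (u := f / d ^ 2) (by
        rw [norm_div, norm_pow, hd, div_self hf0.ne'])
      refine absurd (hm (d * y)) (not_le.2 ?_)
      rw [show (d * y) ^ 2 - s * (d * y) + f = d ^ 2 * (y ^ 2 - f / d ^ 2) + -(s * (d * y)) + 2 * f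
        by field_simp; ring]
      refine add_lt (add_lt ?_ ?_) ?_
      · rw [norm_mul, norm_pow, hd]
        nlinarith
      · rw [norm_neg, norm_mul, norm_mul, ← hd]
        nlinarith [mul_le_mul_of_nonneg_left h6 (mul_nonneg (norm_nonneg s) hd0.le)]
      · rw [norm_mul]
        nlinarith

/-- **Local quaternion algebras are split by the separable quadratic extensions.** -/
theorem spl_loc (hL : LQ2) {E : Type} [DivisionRing E] [Algebra R E] [FiniteDimensional R E]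
    [Algebra.IsCentral R E] (hE : finrank R E = 2 ^ 2) {t n : R} (hs : t ^ 2 ≠ 4 * n)
    (h : ∀ x : R, x ^ 2 - t * x + n ≠ 0) {M : Type} [Field M] (φ : R →+* M) {θ : M}
    (hθ : θ ^ 2 - φ t * θ + φ n = 0) : Spl E 2 φ := by
  obtain ⟨c, h1, h2⟩ := exists_lt hs h
  refine hL R E hE _ h2 M φ ((φ c - θ) / φ (t - 2 * c)) ?_
  have h3 : φ (t - 2 * c) ≠ 0 := (map_ne_zero φ).2 h1
  rw [map_div₀, map_pow]
  field_simp
  simp only [map_sub, map_add, map_mul, map_ofNat]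
  linear_combination hθ

end Vale.Agent.P011UF3
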